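import Vale.Agent.P038.K4.Defs

/-!
# P038: oriented graphs built by substitution and by adding vertices upstream
-/

universe u

namespace Vale.Agent.P038.K4.Sub

/-- The oriented graph on `W` induced by a map `W → V` (used for inclusions of subsets). -/
def pull {V W : Type*} (D : OGraph V) (f : W → V) : OGraph W where
  arc a b := D.arc (f a) (f b)
  loopless a := D.loopless (f a)
  asymm a b := D.asymm (f a) (f b)

/-- The oriented graphs that can be built, by substitution and by adding vertices upstream, from
tournaments and from oriented graphs all of whose `K₄`s consist of a cyclic triangle and a vertex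
dominated by it (for example oriented graphs without `K₄`). -/
inductive Built : {V : Type u} → OGraph V → Prop
  /-- no `K₄`, or only `K₄`s of the form cyclic triangle and common out-neighbour -/
  | k4 {V : Type u} (D : OGraph V) (h : OnlySinkK4 D) : Built D
  /-- tournaments -/
  | tournament {V : Type u} (D : OGraph V) (h : ∀ u v, u ≠ v → Joined D u v) : Built D
  /-- substitution of oriented graphs for the vertices of an oriented graph `E` -/
  | subst {V Q : Type u} (D : OGraph V) (E : OGraph Q) (π : V → Q) (hπ : Function.Surjective π)
      (harc : ∀ u v, π u ≠ π v → (D.arc u v ↔ E.arc (π u) (π v))) (hE : Built E)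
      (hF : ∀ q, Built (pull D (Subtype.val : {x // π x = q} → V))) : Built D
  /-- adding vertices that receive no arcs from the old ones -/
  | upstream {V : Type u} (D : OGraph V) (S : Set V) (hS : S.Nonempty)
      (hcl : ∀ u v, u ∈ S → D.arc u v → v ∈ S)
      (h : Built (pull D (Subtype.val : S → V))) : Built D

end Vale.Agent.P038.K4.Sub
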