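import Vale.Agent.P038.Defs

namespace Vale.Agent.P038.K4.Sub

/-- No vertex has four pairwise joined out-neighbours. -/
def NoOutK4 {V : Type*} (D : OGraph V) : Prop :=
  ∀ v a b c d, D.arc v a → D.arc v b → D.arc v c → D.arc v d →
    Joined D a b → Joined D a c → Joined D a d → Joined D b c → Joined D b d → Joined D c d → False

end Vale.Agent.P038.K4.Sub
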