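import Vale.Agent.P038.Mantel
import Vale.Agent.P038.K4.Sub.DefsK5

/-!
# P038: an approximate second neighbourhood theorem when no vertex dominates a `K₄`
-/

set_option linter.all false

namespace Vale.Agent.P038.K4.Sub

open Finset

variable {V : Type*} [Fintype V]

theorem joined_symm {D : OGraph V} {a b : V} (h : Joined D a b) : Joined D b a := h.symm

open Classical in
theorem ew_union_left (D : OGraph V) (w : V → ℝ) {S T : Finset V} (h : Disjoint S T) (U : Finset V) :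
    ew D w (S ∪ T) U = ew D w S U + ew D w T U := by
  unfold ew
  exact Finset.sum_union h

open Classical in
theorem ew_union_right (D : OGraph V) (w : V → ℝ) {S T : Finset V} (h : Disjoint S T) (U : Finset V) :
    ew D w U (S ∪ T) = ew D w U S + ew D w U T := by
  unfold ew
  rw [← Finset.sum_add_distrib]
  exact Finset.sum_congr rfl fun x _ => Finset.sum_union h

open Classical in
/-- Weighted Turan inequality for sets without four pairwise joined vertices. -/
theorem turan3 (D : OGraph V) (w : V → ℝ) (hw : ∀ v, 0 ≤ w v) (S : Finset V)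
    (hS : ∀ a ∈ S, ∀ b ∈ S, ∀ c ∈ S, ∀ d ∈ S, Joined D a b → Joined D a c → Joined D a d →
      Joined D b c → Joined D b d → Joined D c d → False) :
    ew D w S S ≤ (∑ x ∈ S, w x) ^ 2 / 3 := by
  set W := ∑ x ∈ S, w x with hW
  rcases S.eq_empty_or_nonempty with h0 | hne
  · subst h0
    simp [ew, hW]
  let dg : V → ℝ := fun x => ∑ y ∈ S, if Joined D x y then w y else 0
  obtain ⟨x0, hx0, hmax⟩ := Finset.exists_max_image S dg hne
  set N := S.filter (fun y => Joined D x0 y) with hN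
  set R := S.filter (fun y => ¬ Joined D x0 y) with hR
  have hdisj : Disjoint N R := Finset.disjoint_filter_filter_not S S _
  have hSu : N ∪ R = S := Finset.filter_union_filter_not_eq _ S
  set d := dg x0 with hd
  have hdN : d = ∑ y ∈ N, w y := by
    rw [hd, hN, Finset.sum_filter]
  have hWs : W = d + ∑ y ∈ R, w y := by
    rw [hW, hdN, ← Finset.sum_union hdisj, hSu]
  have hd0 : 0 ≤ d := by rw [hdN]; exact Finset.sum_nonneg fun x _ => hw x
  have hNN : ew D w N N ≤ d ^ 2 / 4 := by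
    rw [hdN]
    refine mantel D w hw N fun a ha b hb c hc hab hbc hac => ?_
    rw [hN, Finset.mem_filter] at ha hb hc
    exact hS x0 hx0 a ha.1 b hb.1 c hc.1 ha.2 hb.2 hc.2 hab hac hbc
  have hR1 : ew D w R S + ew D w S R ≤ ∑ y ∈ R, w y * d := by
    have h2 : ew D w S R = ∑ y ∈ R, ∑ z ∈ S, if D.arc z y then w z * w y else 0 := by
      unfold ew
      exact Finset.sum_comm
    rw [h2, ew, ← Finset.sum_add_distrib]
    refine Finset.sum_le_sum fun y hy => ?_
    rw [← Finset.sum_add_distrib]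
    have h3 : ∑ z ∈ S, ((if D.arc y z then w y * w z else 0) + (if D.arc z y then w z * w y else 0))
        = w y * dg y := by
      simp only [dg]
      rw [Finset.mul_sum]
      refine Finset.sum_congr rfl fun z _ => ?_
      by_cases h : D.arc y z
      · have h' := D.asymm y z h
        simp [Joined, h, h']
      · by_cases h' : D.arc z y
        · simp [Joined, h, h', mul_comm]
        · simp [Joined, h, h']
    rw [h3]
    exact mul_le_mul_of_nonneg_left (hmax y (Finset.mem_filter.1 hy).1) (hw y)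
  have hsplit : ew D w S S = ew D w N N + ew D w N R + ew D w R N + ew D w R R := by
    conv_lhs => rw [← hSu]
    rw [ew_union_left D w hdisj, ew_union_right D w hdisj, ew_union_right D w hdisj]
    ring
  have hR2 : ew D w R S = ew D w R N + ew D w R R := by
    conv_lhs => rw [← hSu]
    exact ew_union_right D w hdisj R
  have hR3 : ew D w S R = ew D w N R + ew D w R R := by
    conv_lhs => rw [← hSu]
    exact ew_union_left D w hdisj R
  have hRR := ew_nonneg D w hw R R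
  have hR4 : ∑ y ∈ R, w y * d = (W - d) * d := by
    rw [← Finset.sum_mul]
    congr 1
    linarith
  nlinarith [sq_nonneg (W - 3 / 2 * d)]

theorem final_ineq4 (δ β : ℝ) (hδ : 0 < δ)
    (h1 : 2 / 3 * δ ≤ β) (h2 : β < 483 / 625 * δ)
    (h : β * ((5 / 4 - 161 / 625) * δ - 483 / 625 * β) - β ^ 2 / 3 + 2 / 3 * δ ^ 2
      < 483 / 625 * δ ^ 2) : False := by
  nlinarith [mul_nonneg (show 0 ≤ β - 2 / 3 * δ by linarith) (show 0 ≤ 483 / 625 * δ - β by linarith),
    mul_nonneg hδ.le (show 0 ≤ 483 / 625 * δ - β by linarith), mul_pos hδ hδ]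

open Classical in
/-- Weighted second neighbourhood theorem with the constant `483/625 = 0.7728` for oriented graphs
in which no vertex dominates a `K₄`. -/
theorem outK4_weighted [Nonempty V] (D : OGraph V) (hD : NoOutK4 D) (w : V → ℝ)
    (hw : ∀ v, 0 ≤ w v) :
    ∃ v, 483 / 625 * ∑ x ∈ N1 D v, w x ≤ ∑ x ∈ N2 D v, w x := by
  by_contra hcon
  push Not at hcon
  obtain ⟨v0, hv0⟩ := Finite.exists_min (fun v => ∑ x ∈ N1 D v, w x)
  set δ := ∑ x ∈ N1 D v0, w x with hδ
  have hmin : ∀ v, δ ≤ ∑ x ∈ N1 D v, w x := hv0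
  have hs0 : ∀ v, 0 ≤ ∑ x ∈ N2 D v, w x := fun v => Finset.sum_nonneg fun x _ => hw x
  have hδ0 : 0 < δ := by
    have h1 := hcon v0
    have h2 := hs0 v0
    linarith
  set A := N1 D v0 with hA
  set B := N2 D v0 with hB
  set b := ∑ x ∈ B, w x with hb
  have hbl : b < 483 / 625 * δ := hcon v0
  have hAB : Disjoint A B := by
    rw [Finset.disjoint_left]
    intro x hx hx'
    exact (mem_N2.1 hx').2.1 (mem_N1.1 hx)
  -- out-neighbours of vertices of A are in A ∪ B
  have hout : ∀ x ∈ A, N1 D x ⊆ A ∪ B := by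
    intro x hx y hy
    rw [Finset.mem_union]
    by_cases h : D.arc v0 y
    · exact Or.inl (mem_N1.2 h)
    · refine Or.inr (mem_N2.2 ⟨?_, h, x, mem_N1.1 hx, mem_N1.1 hy⟩)
      rintro rfl
      exact D.asymm _ _ (mem_N1.1 hx) (mem_N1.1 hy)
  have hsplit : ∀ x ∈ A, ∑ y ∈ N1 D x, w y =
      ∑ y ∈ N1 D x ∩ A, w y + ∑ y ∈ N1 D x ∩ B, w y := by
    intro x hx
    rw [← Finset.sum_union]
    · refine Finset.sum_congr ?_ fun _ _ => rfl
      rw [← Finset.inter_union_distrib_left]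
      exact (Finset.inter_eq_left.2 (hout x hx)).symm
    · exact Disjoint.mono Finset.inter_subset_right Finset.inter_subset_right hAB
  have hAne : A.Nonempty := by
    by_contra h
    rw [Finset.not_nonempty_iff_eq_empty] at h
    rw [hδ, h, Finset.sum_empty] at hδ0
    exact lt_irrefl _ hδ0
  -- u minimises the inner out-weight
  obtain ⟨u, huA, humin⟩ := Finset.exists_min_image A (fun x => ∑ y ∈ N1 D x ∩ A, w y) hAne
  set a := ∑ y ∈ N1 D u ∩ A, w y with ha
  set Bu := N1 D u ∩ B with hBu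
  set β := ∑ y ∈ Bu, w y with hβ
  have hβ0 : 0 ≤ β := Finset.sum_nonneg fun x _ => hw x
  have hdu : ∑ y ∈ N1 D u, w y = a + β := hsplit u huA
  have hduδ : δ ≤ a + β := by rw [← hdu]; exact hmin u
  have hβb : β ≤ b :=
    Finset.sum_le_sum_of_subset_of_nonneg Finset.inter_subset_right fun x _ _ => hw x
  have ha0 : 0 < a := by linarith
  -- Turan for A
  have hM1 : ew D w A A ≤ δ ^ 2 / 3 :=
    turan3 D w hw A fun x hx y hy z hz t ht =>
      hD v0 x y z t (mem_N1.1 hx) (mem_N1.1 hy) (mem_N1.1 hz) (mem_N1.1 ht)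
  have haA : a * δ ≤ ew D w A A := by
    rw [ew_eq_inter, hδ, Finset.mul_sum]
    refine Finset.sum_le_sum fun x hx => ?_
    have := humin x hx
    have hx0 := hw x
    nlinarith only [this, hx0]
  have ha4 : a ≤ δ / 3 := by
    have : a * δ ≤ δ / 3 * δ := by nlinarith only [hM1, haA]
    exact le_of_mul_le_mul_right this hδ0
  have hβ34 : 2 / 3 * δ ≤ β := by linarith only [hduδ, ha4]
  -- arcs from A to B
  have hAtoB : 2 / 3 * δ ^ 2 ≤ ew D w A B := by
    have h1 : ew D w A B = ∑ x ∈ A, w x * ∑ y ∈ N1 D x, w y - ew D w A A := by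
      rw [ew_eq_inter, ew_eq_inter, ← Finset.sum_sub_distrib]
      refine Finset.sum_congr rfl fun x hx => ?_
      rw [hsplit x hx]; ring
    have h2 : δ ^ 2 ≤ ∑ x ∈ A, w x * ∑ y ∈ N1 D x, w y := by
      have : δ ^ 2 = ∑ x ∈ A, w x * δ := by rw [← Finset.sum_mul, ← hδ]; ring
      rw [this]
      exact Finset.sum_le_sum fun x _ => mul_le_mul_of_nonneg_left (hmin x) (hw x)
    rw [h1]; linarith only [hM1, h2]
  -- y: an out-neighbour of u in A of small out-weight inside N1 u ∩ A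
  set Au := N1 D u ∩ A with hAu
  have hv0u : D.arc v0 u := mem_N1.1 huA
  have hne : Au.Nonempty := by
    by_contra h
    rw [Finset.not_nonempty_iff_eq_empty] at h
    rw [ha, h, Finset.sum_empty] at ha0
    exact lt_irrefl _ ha0
  have hM3 : ew D w Au Au ≤ a ^ 2 / 4 := by
    refine mantel D w hw Au fun x hx y hy z hz hxy hyz hxz => ?_
    rw [hAu, Finset.mem_inter] at hx hy hz
    exact hD v0 u x y z hv0u (mem_N1.1 hx.2) (mem_N1.1 hy.2) (mem_N1.1 hz.2)
      (Or.inl (mem_N1.1 hx.1)) (Or.inl (mem_N1.1 hy.1)) (Or.inl (mem_N1.1 hz.1)) hxy hxz hyz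
  obtain ⟨y, hy, hymin⟩ := Finset.exists_min_image Au (fun x => ∑ t ∈ N1 D x ∩ Au, w t) hne
  have hy4 : ∑ t ∈ N1 D y ∩ Au, w t ≤ a / 4 := by
    have h1 : (∑ t ∈ N1 D y ∩ Au, w t) * a ≤ ew D w Au Au := by
      rw [ew_eq_inter, ha, Finset.mul_sum]
      refine Finset.sum_le_sum fun x hx => ?_
      have := hymin x hx
      have hx0 := hw x
      nlinarith only [this, hx0]
    have : (∑ t ∈ N1 D y ∩ Au, w t) * a ≤ a / 4 * a := by nlinarith only [hM3, h1]
    exact le_of_mul_le_mul_right this ha0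
  have hy' := hy
  rw [hAu, Finset.mem_inter] at hy'
  have huy : D.arc u y := mem_N1.1 hy'.1
  have hyN : (N1 D y ∩ A) \ Au ⊆ N2 D u ∩ A := by
    intro t ht
    rw [Finset.mem_sdiff, Finset.mem_inter] at ht
    rw [Finset.mem_inter]
    refine ⟨mem_N2.2 ⟨?_, ?_, y, huy, mem_N1.1 ht.1.1⟩, ht.1.2⟩
    · rintro rfl
      exact D.asymm _ _ huy (mem_N1.1 ht.1.1)
    · intro hut
      exact ht.2 (Finset.mem_inter.2 ⟨mem_N1.2 hut, ht.1.2⟩)
  have hN2A : 3 / 4 * a ≤ ∑ x ∈ N2 D u ∩ A, w x := by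
    have h1 : a ≤ ∑ t ∈ N1 D y ∩ A, w t := humin y hy'.2
    have h2 : ∑ t ∈ N1 D y ∩ A, w t = ∑ t ∈ (N1 D y ∩ A) ∩ Au, w t
        + ∑ t ∈ (N1 D y ∩ A) \ Au, w t := by
      rw [Finset.sum_inter_add_sum_sdiff]
    have h3 : ∑ t ∈ (N1 D y ∩ A) ∩ Au, w t ≤ ∑ t ∈ N1 D y ∩ Au, w t := by
      refine Finset.sum_le_sum_of_subset_of_nonneg ?_ fun x _ _ => hw x
      intro t ht
      rw [Finset.mem_inter, Finset.mem_inter] at ht
      exact Finset.mem_inter.2 ⟨ht.1.1, ht.2⟩
    have h4 := Finset.sum_le_sum_of_subset_of_nonneg hyN fun x _ _ => hw x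
    linarith
  have hN2split : ∑ x ∈ N2 D u, w x = ∑ x ∈ N2 D u ∩ A, w x + ∑ x ∈ N2 D u \ A, w x := by
    rw [Finset.sum_inter_add_sum_sdiff]
  have hN2out : ∑ x ∈ N2 D u \ A, w x ≤ 483 / 625 * (a + β) - 3 / 4 * a := by
    have h1 := hcon u
    rw [hN2split, hdu] at h1
    linarith only [hN2A, h1]
  -- vertices of B_u
  have hz : ∀ z ∈ Bu, δ - (483 / 625 * (a + β) - 3 / 4 * a) ≤
      ∑ t ∈ N1 D z ∩ A, w t + ∑ t ∈ N1 D z ∩ Bu, w t := by
    intro z hzB
    have hz1 := Finset.mem_inter.1 hzB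
    have huz : D.arc u z := mem_N1.1 hz1.1
    have hBuA : Disjoint A Bu := hAB.mono_right Finset.inter_subset_right
    have hsub : N1 D z ⊆ (N1 D z ∩ A) ∪ (N1 D z ∩ Bu) ∪ (N2 D u \ A) := by
      intro t ht
      simp only [Finset.mem_union, Finset.mem_inter, Finset.mem_sdiff]
      by_cases h1 : t ∈ A
      · exact Or.inl (Or.inl ⟨ht, h1⟩)
      by_cases h2 : t ∈ Bu
      · exact Or.inl (Or.inr ⟨ht, h2⟩)
      refine Or.inr ⟨mem_N2.2 ⟨?_, ?_, z, huz, mem_N1.1 ht⟩, h1⟩
      · rintro rfl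
        exact h1 huA
      · intro hut
        have : t ∈ A ∪ B := hout u huA (mem_N1.2 hut)
        rcases Finset.mem_union.1 this with h | h
        · exact h1 h
        · exact h2 (Finset.mem_inter.2 ⟨mem_N1.2 hut, h⟩)
    have h3 : ∑ t ∈ N1 D z, w t ≤
        ∑ t ∈ N1 D z ∩ A, w t + ∑ t ∈ N1 D z ∩ Bu, w t + ∑ t ∈ N2 D u \ A, w t := by
      refine (Finset.sum_le_sum_of_subset_of_nonneg hsub fun x _ _ => hw x).trans ?_
      have h4 := Finset.sum_union_inter (s₁ := (N1 D z ∩ A) ∪ (N1 D z ∩ Bu))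
        (s₂ := N2 D u \ A) (f := w)
      have h5 := Finset.sum_union_inter (s₁ := N1 D z ∩ A) (s₂ := N1 D z ∩ Bu) (f := w)
      have h6 : 0 ≤ ∑ i ∈ ((N1 D z ∩ A) ∪ (N1 D z ∩ Bu)) ∩ (N2 D u \ A), w i :=
        Finset.sum_nonneg fun x _ => hw x
      have h7 : 0 ≤ ∑ i ∈ (N1 D z ∩ A) ∩ (N1 D z ∩ Bu), w i :=
        Finset.sum_nonneg fun x _ => hw x
      linarith only [h4, h5, h6, h7]
    have h4 := hmin z
    linarith only [hN2out, h3, h4]
  -- sum over B_u
  have hsum : β * (δ - (483 / 625 * (a + β) - 3 / 4 * a)) ≤ ew D w Bu A + ew D w Bu Bu := by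
    rw [ew_eq_inter, ew_eq_inter, ← Finset.sum_add_distrib, hβ, Finset.sum_mul]
    refine Finset.sum_le_sum fun z hzB => ?_
    have := mul_le_mul_of_nonneg_left (hz z hzB) (hw z)
    linarith only [this]
  have hM2 : ew D w Bu Bu ≤ β ^ 2 / 3 :=
    turan3 D w hw Bu fun x hx y hy z hz t ht =>
      hD u x y z t (mem_N1.1 (Finset.mem_inter.1 hx).1) (mem_N1.1 (Finset.mem_inter.1 hy).1)
        (mem_N1.1 (Finset.mem_inter.1 hz).1) (mem_N1.1 (Finset.mem_inter.1 ht).1)
  have hBA : ew D w Bu A ≤ ew D w B A := ew_mono_left D w hw Finset.inter_subset_right A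
  have htot : ew D w A B + ew D w B A ≤ δ * b := ew_add_le D w hw A B
  have hfin : δ * b < 483 / 625 * δ ^ 2 := by nlinarith only [hδ0, hbl]
  refine final_ineq4 δ β hδ0 hβ34 (lt_of_le_of_lt hβb hbl) ?_
  have h8 : (5 / 4 - 161 / 625) * δ - 483 / 625 * β ≤ δ - (483 / 625 * (a + β) - 3 / 4 * a) := by
    linarith
  have h9 : β * ((5 / 4 - 161 / 625) * δ - 483 / 625 * β)
      ≤ β * (δ - (483 / 625 * (a + β) - 3 / 4 * a)) :=
    mul_le_mul_of_nonneg_left h8 hβ0
  linarith only [hAtoB, hsum, hM2, hBA, htot, hfin, h9]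

end Vale.Agent.P038.K4.Sub
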