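import Vale.Agent.P038.K4.Sub.Tour
import Vale.Agent.P038.K4.Sub.Defs

/-!
# P038: the weighted conjecture is inherited by substitution and by adding upstream vertices
-/

set_option linter.all false

universe u

namespace Vale.Agent.P038.K4.Sub

/-- second out-neighbour -/
def Sec {V : Type*} (D : OGraph V) (v x : V) : Prop :=
  x ≠ v ∧ ¬ D.arc v x ∧ ∃ u, D.arc v u ∧ D.arc u x

open Classical in
theorem sum_N1 {V : Type*} [Fintype V] (D : OGraph V) (w : V → ℝ) (v : V) :
    ∑ x ∈ N1 D v, w x = ∑ x, if D.arc v x then w x else 0 := by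
  rw [N1, Finset.sum_filter]

open Classical in
theorem sum_N2 {V : Type*} [Fintype V] (D : OGraph V) (w : V → ℝ) (v : V) :
    ∑ x ∈ N2 D v, w x = ∑ x, if Sec D v x then w x else 0 := by
  rw [N2, Finset.sum_filter]
  refine Finset.sum_congr rfl fun x _ => ?_
  by_cases h : Sec D v x
  · rw [if_pos h]; exact if_pos h
  · rw [if_neg h]; exact if_neg h

open Classical in
theorem sum_subtype_ite {V : Type*} [Fintype V] (P : V → Prop) [Fintype {x // P x}] (g : V → ℝ) :
    ∑ x : {x // P x}, g x = ∑ x, if P x then g x else 0 := by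
  rw [← Finset.sum_filter]
  exact (Finset.sum_subtype (Finset.univ.filter P) (by simp) g).symm

theorem wsnc_upstream {V : Type*} [Fintype V] (D : OGraph V) (S : Set V) [Fintype S]
    (hcl : ∀ u v, u ∈ S → D.arc u v → v ∈ S) (h : WSNC (pull D (Subtype.val : S → V))) :
    WSNC D := by
  classical
  intro w hw
  obtain ⟨⟨v, hv⟩, h1⟩ := h (fun x => w x) (fun x => hw x)
  refine ⟨v, ?_⟩
  rw [sum_N1, sum_N2] at h1 ⊢
  have e1 : ∑ x : S, (if (pull D (Subtype.val : S → V)).arc ⟨v, hv⟩ x then w x else 0)
      = ∑ x, if D.arc v x then w x else 0 := by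
    have := sum_subtype_ite (fun x => x ∈ S) (fun x => if D.arc v x then w x else 0)
    refine Eq.trans ?_ (this.trans ?_)
    · rfl
    · refine Finset.sum_congr rfl fun x _ => ?_
      by_cases h2 : D.arc v x
      · simp [h2, hcl v x hv h2]
      · simp [h2]
  have e2 : ∑ x : S, (if Sec (pull D (Subtype.val : S → V)) ⟨v, hv⟩ x then w x else 0)
      = ∑ x, if Sec D v x then w x else 0 := by
    have := sum_subtype_ite (fun x => x ∈ S) (fun x => if Sec D v x then w x else 0)
    refine Eq.trans ?_ (this.trans ?_)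
    · refine Finset.sum_congr rfl fun x _ => ?_
      have : Sec (pull D (Subtype.val : S → V)) ⟨v, hv⟩ x ↔ Sec D v x := by
        constructor
        · rintro ⟨h2, h3, ⟨u, hu⟩, h4, h5⟩
          exact ⟨fun e => h2 (Subtype.ext e), h3, u, h4, h5⟩
        · rintro ⟨h2, h3, u, h4, h5⟩
          exact ⟨fun e => h2 (congrArg Subtype.val e), h3, ⟨u, hcl v u hv h4⟩, h4, h5⟩
      simp only [this]
    · refine Finset.sum_congr rfl fun x _ => ?_
      by_cases h2 : Sec D v x
      · obtain ⟨u, h4, h5⟩ := h2.2.2
        simp [h2, hcl u x (hcl v u hv h4) h5]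
      · simp [h2]
  rw [e1, e2] at h1
  exact h1

/-- Substitution, for one weight function. -/
theorem snc_subst {V Q : Type*} [Fintype V] [Fintype Q] (D : OGraph V) (E : OGraph Q) (π : V → Q)
    (hπ : Function.Surjective π) (harc : ∀ u v, π u ≠ π v → (D.arc u v ↔ E.arc (π u) (π v)))
    [∀ q, Fintype {x // π x = q}] (hE : WSNC E) (w : V → ℝ) (hw : ∀ v, 0 ≤ w v)
    (hF : ∀ q, ∃ v, ∑ x ∈ N1 (pull D (Subtype.val : {x // π x = q} → V)) v, w x ≤
      ∑ x ∈ N2 (pull D (Subtype.val : {x // π x = q} → V)) v, w x) :
    ∃ v, ∑ x ∈ N1 D v, w x ≤ ∑ x ∈ N2 D v, w x := by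
  classical
  set W : Q → ℝ := fun q => ∑ y, if π y = q then w y else 0 with hW
  have hW0 : ∀ q, 0 ≤ W q := fun q => Finset.sum_nonneg fun y _ => by
    split_ifs
    exacts [hw y, le_rfl]
  obtain ⟨q, hq⟩ := hE W hW0
  obtain ⟨⟨v, hv⟩, h1⟩ := hF q
  refine ⟨v, ?_⟩
  rw [sum_N1, sum_N2] at h1 hq ⊢
  have hsw : ∀ R : Q → Prop, ∑ q', (if R q' then W q' else 0) = ∑ y, if R (π y) then w y else 0 := by
    intro R
    have e : ∀ q', (if R q' then W q' else 0) = ∑ y, if π y = q' then (if R (π y) then w y else 0)
        else 0 := by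
      intro q'
      simp only [hW]
      by_cases hR : R q'
      · rw [if_pos hR]
        refine Finset.sum_congr rfl fun y _ => ?_
        by_cases hy : π y = q'
        · simp [hy, hR]
        · simp [hy]
      · rw [if_neg hR]
        symm
        refine Finset.sum_eq_zero fun y _ => ?_
        by_cases hy : π y = q'
        · simp [hy, hR]
        · simp [hy]
    simp only [e]
    rw [Finset.sum_comm]
    refine Finset.sum_congr rfl fun y _ => ?_
    simp
  rw [hsw, hsw] at hq
  have e1 : ∑ x, (if D.arc v x then w x else 0)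
      = (∑ x : {x // π x = q}, if (pull D (Subtype.val : {x // π x = q} → V)).arc ⟨v, hv⟩ x
          then w x else 0) + ∑ y, if E.arc q (π y) then w y else 0 := by
    have := sum_subtype_ite (fun x => π x = q) (fun x => if D.arc v x then w x else 0)
    rw [show (∑ x : {x // π x = q}, if (pull D (Subtype.val : {x // π x = q} → V)).arc ⟨v, hv⟩ x
          then w x else 0) = _ from this, ← Finset.sum_add_distrib]
    refine Finset.sum_congr rfl fun x _ => ?_
    by_cases hx : π x = q
    · have h2 : ¬ E.arc q (π x) := by rw [hx]; exact E.loopless q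
      simp [hx, E.loopless q]
    · have h2 : D.arc v x ↔ E.arc q (π x) := by
        rw [← hv]
        exact harc v x (by rw [hv]; exact fun e => hx e.symm)
      simp [hx, h2]
  have e2 : (∑ x : {x // π x = q}, if Sec (pull D (Subtype.val : {x // π x = q} → V)) ⟨v, hv⟩ x
          then w x else 0) + ∑ y, (if Sec E q (π y) then w y else 0)
      ≤ ∑ x, (if Sec D v x then w x else 0) := by
    have h2 : ∀ x : {x // π x = q}, (if Sec (pull D (Subtype.val : {x // π x = q} → V)) ⟨v, hv⟩ x
        then w x else 0) ≤ (fun x => if Sec D v x then w x else 0) (x : V) := by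
      intro x
      by_cases hx : Sec (pull D (Subtype.val : {x // π x = q} → V)) ⟨v, hv⟩ x
      · have : Sec D v x := by
          obtain ⟨h2, h3, ⟨u, hu⟩, h4, h5⟩ := hx
          exact ⟨fun e => h2 (Subtype.ext e), h3, u, h4, h5⟩
        simp [hx, this]
      · simp only [hx, if_false]
        split_ifs
        exacts [hw _, le_rfl]
    have h3 := Finset.sum_le_sum fun x (_ : x ∈ (Finset.univ : Finset {x // π x = q})) => h2 x
    rw [sum_subtype_ite (fun x => π x = q) (fun x => if Sec D v x then w x else 0)] at h3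
    refine le_trans (add_le_add_left h3 _) ?_
    rw [← Finset.sum_add_distrib]
    refine Finset.sum_le_sum fun x _ => ?_
    by_cases hx : π x = q
    · have h4 : ¬ Sec E q (π x) := fun h => h.1 hx
      rw [if_pos hx, if_neg h4, add_zero]
    · simp only [hx, if_false, zero_add]
      by_cases h4 : Sec E q (π x)
      · have h5 : Sec D v x := by
          obtain ⟨h6, h7, u', h8, h9⟩ := h4
          obtain ⟨u, rfl⟩ := hπ u'
          refine ⟨fun e => hx (e ▸ hv), ?_, u, ?_, ?_⟩
          · rw [harc v x (by rw [hv]; exact fun e => hx e.symm), hv]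
            exact h7
          · have : π v ≠ π u := by
              intro e
              rw [hv] at e
              rw [← e] at h8
              exact E.loopless _ h8
            rw [harc v u this, hv]
            exact h8
          · have : π u ≠ π x := by
              intro e
              rw [← e] at h9
              exact E.loopless _ h9
            rw [harc u x this]
            exact h9
        simp [h4, h5]
      · simp only [h4, if_false]
        split_ifs
        exacts [hw _, le_rfl]
  rw [e1]
  linarith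

theorem wsnc_subst {V Q : Type*} [Fintype V] [Fintype Q] (D : OGraph V) (E : OGraph Q) (π : V → Q)
    (hπ : Function.Surjective π) (harc : ∀ u v, π u ≠ π v → (D.arc u v ↔ E.arc (π u) (π v)))
    [∀ q, Fintype {x // π x = q}]
    (hE : WSNC E) (hF : ∀ q, WSNC (pull D (Subtype.val : {x // π x = q} → V))) :
    WSNC D :=
  fun w hw => snc_subst D E π hπ harc hE w hw fun q => hF q (fun x => w x) (fun x => hw x)

theorem Built.wsnc
    (hP : ∀ {V : Type u} [Fintype V] [Nonempty V] (D : OGraph V), OnlySinkK4 D → WSNC D)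
    {V : Type u} {D : OGraph V} (h : Built D) : ∀ [Fintype V] [Nonempty V], WSNC D := by
  induction h with
  | k4 D h =>
    intro _ _
    exact hP D h
  | tournament D h =>
    intro _ _
    exact wsnc_of_tournament D h
  | @subst V Q D E π hπ harc hE hF ihE ihF =>
    intro _ _
    classical
    haveI : Finite Q := Finite.of_surjective π hπ
    haveI : Fintype Q := Fintype.ofFinite Q
    haveI : Nonempty Q := Nonempty.map π ‹Nonempty V›
    haveI : ∀ q, Fintype {x // π x = q} := fun q => Fintype.ofFinite _
    refine wsnc_subst D E π hπ harc ihE fun q => ?_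
    haveI : Nonempty {x // π x = q} := by
      obtain ⟨x, hx⟩ := hπ q
      exact ⟨⟨x, hx⟩⟩
    exact ihF q
  | @upstream V D S hS hcl h ih =>
    intro _ _
    classical
    haveI : Nonempty S := hS.to_subtype
    haveI : Fintype S := Fintype.ofFinite S
    exact wsnc_upstream D S hcl ih

theorem Built.card_subst
    (hP : ∀ {V : Type u} [Fintype V] [Nonempty V] (D : OGraph V), OnlySinkK4 D → WSNC D)
    {V Q : Type u} [Fintype V] [Nonempty V] (D : OGraph V) (E : OGraph Q) (π : V → Q)
    [∀ q, Fintype {x // π x = q}] (hπ : Function.Surjective π)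
    (harc : ∀ u v, π u ≠ π v → (D.arc u v ↔ E.arc (π u) (π v))) (hE : Built E)
    (hF : ∀ q, ∃ v, (N1 (pull D (Subtype.val : {x // π x = q} → V)) v).card ≤
      (N2 (pull D (Subtype.val : {x // π x = q} → V)) v).card) :
    ∃ v, (N1 D v).card ≤ (N2 D v).card := by
  classical
  haveI : Finite Q := Finite.of_surjective π hπ
  haveI : Fintype Q := Fintype.ofFinite Q
  haveI : Nonempty Q := Nonempty.map π ‹Nonempty V›
  obtain ⟨v, hv⟩ := snc_subst D E π hπ harc (hE.wsnc hP) (fun _ => 1) (fun _ => zero_le_one)
    (fun q => by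
      obtain ⟨v, hv⟩ := hF q
      refine ⟨v, ?_⟩
      simpa using hv)
  exact ⟨v, by simpa using hv⟩

end Vale.Agent.P038.K4.Sub
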