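import Vale.Agent.P038.K4.Defs
import Mathlib.Analysis.LocallyConvex.Separation
import Mathlib.Topology.Algebra.Module.FiniteDimension
import Mathlib.Analysis.Convex.StdSimplex
import Mathlib.LinearAlgebra.Matrix.ToLin

/-!
# P038: weighted second neighbourhood theorem for tournaments (Fisher's argument)
-/

namespace Vale.Agent.P038.K4.Sub

variable {V : Type*} [Fintype V]

/-- The second neighbourhood conjecture with weights, for one oriented graph. -/
def WSNC (D : OGraph V) : Prop :=
  ∀ w : V → ℝ, (∀ v, 0 ≤ w v) → ∃ v, ∑ x ∈ N1 D v, w x ≤ ∑ x ∈ N2 D v, w x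

theorem skew_sum_eq_zero (S : V → V → ℝ) (hS : ∀ u v, S u v = - S v u) (p : V → ℝ) :
    ∑ v, ∑ u, p v * (S v u * p u) = 0 := by
  have h1 : ∑ v, ∑ u, p v * (S v u * p u) = ∑ v, ∑ u, p u * (S u v * p v) := Finset.sum_comm
  have h2 : ∑ v, ∑ u, p u * (S u v * p v) = - ∑ v, ∑ u, p v * (S v u * p u) := by
    rw [← Finset.sum_neg_distrib]
    refine Finset.sum_congr rfl fun v _ => ?_
    rw [← Finset.sum_neg_distrib]
    refine Finset.sum_congr rfl fun u _ => ?_
    rw [hS u v]; ring
  linarith

/-- optimal strategy of a symmetric game -/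
theorem exists_density [Nonempty V] (S : V → V → ℝ) (hS : ∀ u v, S u v = - S v u) :
    ∃ l : V → ℝ, (∀ v, 0 ≤ l v) ∧ ∑ v, l v = 1 ∧ ∀ v, 0 ≤ ∑ u, S v u * l u := by
  classical
  by_contra hcon
  push Not at hcon
  let T : (V → ℝ) →ₗ[ℝ] (V → ℝ) := Matrix.mulVecLin (Matrix.of S)
  have hT : ∀ l v, T l v = ∑ u, S v u * l u := by
    intro l v
    simp [T, Matrix.mulVec, dotProduct]
  have hcont : Continuous T := LinearMap.continuous_of_finiteDimensional T
  have hK : IsCompact (T '' stdSimplex ℝ V) := (isCompact_stdSimplex ℝ V).image hcont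
  have hKc : Convex ℝ (T '' stdSimplex ℝ V) := (convex_stdSimplex ℝ V).linear_image T
  have hdisj : Disjoint (T '' stdSimplex ℝ V) (Set.Ici (0 : V → ℝ)) := by
    rw [Set.disjoint_left]
    rintro _ ⟨l, hl, rfl⟩ hz
    obtain ⟨v, hv⟩ := hcon l hl.1 hl.2
    have := hz v
    rw [hT] at this
    simp only [Pi.zero_apply] at this
    linarith
  obtain ⟨f, u, v0, h1, h2, h3⟩ := geometric_hahn_banach_compact_closed hKc hK
    (convex_Ici (0 : V → ℝ)) isClosed_Ici hdisj
  set p : V → ℝ := fun v => f (Pi.single v 1) with hp
  have hf : ∀ z : V → ℝ, f z = ∑ v, z v * p v := by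
    intro z
    have : z = ∑ v, z v • (Pi.single v (1 : ℝ) : V → ℝ) := by
      funext x
      simp [Finset.sum_apply, Pi.single_apply]
    conv_lhs => rw [this]
    rw [map_sum]
    refine Finset.sum_congr rfl fun v _ => ?_
    rw [map_smul, smul_eq_mul]
  have hv0 : v0 < 0 := by
    have := h3 0 (by simp)
    simpa using this
  have hp0 : ∀ v, 0 ≤ p v := by
    intro v
    by_contra hneg
    push Not at hneg
    have := h3 (Pi.single v (v0 / p v)) (by
      intro x
      rw [Pi.single_apply]
      split_ifs
      · exact (div_pos_of_neg_of_neg hv0 hneg).le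
      · exact le_rfl)
    rw [hf] at this
    simp only [Pi.single_apply, ite_mul, zero_mul, Finset.sum_ite_eq', Finset.mem_univ,
      if_true] at this
    rw [div_mul_cancel₀ _ hneg.ne] at this
    exact lt_irrefl _ this
  have hP : 0 < ∑ v, p v := by
    rcases (Finset.sum_nonneg fun v (_ : v ∈ Finset.univ) => hp0 v).eq_or_lt with h | h
    · exfalso
      have h0 : ∀ v, p v = 0 := by
        intro v
        exact (Finset.sum_eq_zero_iff_of_nonneg fun v _ => hp0 v).1 h.symm v (Finset.mem_univ v)
      obtain ⟨v⟩ := ‹Nonempty V›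
      have := h1 (T (Pi.single v 1)) ⟨_, single_mem_stdSimplex ℝ v, rfl⟩
      rw [hf] at this
      simp only [h0, mul_zero, Finset.sum_const_zero] at this
      linarith
    · exact h
  set P := ∑ v, p v with hPdef
  have hl : (fun v => p v / P) ∈ stdSimplex ℝ V := by
    refine ⟨fun v => div_nonneg (hp0 v) hP.le, ?_⟩
    rw [← Finset.sum_div]
    exact div_self hP.ne'
  have key := h1 _ ⟨_, hl, rfl⟩
  rw [hf] at key
  have e : ∑ v, T (fun v => p v / P) v * p v = (∑ v, ∑ u, p v * (S v u * p u)) / P := by
    rw [Finset.sum_div]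
    refine Finset.sum_congr rfl fun v _ => ?_
    rw [hT, Finset.sum_mul, Finset.sum_div]
    refine Finset.sum_congr rfl fun u _ => ?_
    ring
  rw [e, skew_sum_eq_zero S hS p, zero_div] at key
  linarith

/-- Tournaments satisfy the weighted second neighbourhood conjecture. -/
theorem wsnc_of_tournament [Nonempty V] (D : OGraph V) (hT : ∀ u v, u ≠ v → Joined D u v) :
    WSNC D := by
  classical
  intro w hw
  set S : V → V → ℝ := fun v u => (if D.arc v u then 1 else 0) - (if D.arc u v then 1 else 0)
    with hSdef
  obtain ⟨l, hl0, hl1, hl⟩ := exists_density S (fun u v => by simp only [hSdef]; ring)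
  have hslack : ∀ v, l v * ∑ u, S v u * l u = 0 := by
    have h0 : ∑ v, l v * ∑ u, S v u * l u = 0 := by
      have := skew_sum_eq_zero S (fun u v => by simp only [hSdef]; ring) l
      simpa only [← Finset.mul_sum] using this
    intro v
    exact (Finset.sum_eq_zero_iff_of_nonneg fun v _ => mul_nonneg (hl0 v) (hl v)).1 h0 v
      (Finset.mem_univ v)
  -- the key inequality
  have key : ∀ x, ∑ v, (if x ∈ N1 D v then l v else 0) ≤ ∑ v, (if x ∈ N2 D v then l v else 0) := by
    intro x
    set A : V → Prop := fun v => x ∈ N1 D v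
    set B : V → Prop := fun v => x ∈ N2 D v
    set C : V → Prop := fun v => v ≠ x ∧ ¬ A v ∧ ¬ B v
    have hA : ∀ v, A v ↔ D.arc v x := fun v => mem_N1
    have hB : ∀ v, B v ↔ x ≠ v ∧ ¬ D.arc v x ∧ ∃ u, D.arc v u ∧ D.arc u x := fun v => mem_N2
    have hS1 : ∀ u v, S u v ≤ 1 := by
      intro u v; simp only [hSdef]; split_ifs <;> norm_num
    have hCA : ∀ c a, C c → A a → S c a = -1 := by
      intro c a hc ha
      have h1 : ¬ D.arc c a := by
        intro h
        exact hc.2.2 ((hB c).2 ⟨fun e => hc.1 e.symm, fun h' => hc.2.1 ((hA c).2 h'),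
          a, h, (hA a).1 ha⟩)
      have h2 : D.arc a c := by
        have hne : a ≠ c := by
          rintro rfl
          exact hc.2.1 ha
        rcases hT a c hne with h | h
        · exact h
        · exact absurd h h1
      simp [hSdef, h1, h2]
    have hCx : ∀ c, C c → S c x ≤ 0 := by
      intro c hc
      have h1 : ¬ D.arc c x := fun h => hc.2.1 ((hA c).2 h)
      simp only [hSdef, h1, if_false]
      split_ifs <;> norm_num
    have hpt : ∀ c, C c → ∀ u, S c u * l u ≤ (if C u then S c u * l u else 0)
        + (if B u then l u else 0) - (if A u then l u else 0) := by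
      intro c hc u
      have hAB : A u → ¬ B u := fun h1 h2 => ((hB u).1 h2).2.1 ((hA u).1 h1)
      by_cases h1 : A u
      · have h2 : ¬ B u := hAB h1
        have h3 : ¬ C u := fun h => h.2.1 h1
        simp only [h1, h2, h3, if_true, if_false, hCA c u hc h1]
        linarith
      · by_cases h2 : B u
        · have h3 : ¬ C u := fun h => h.2.2 h2
          simp only [h1, h2, h3, if_true, if_false]
          nlinarith [hS1 c u, hl0 u]
        · by_cases h4 : u = x
          · have h3 : ¬ C u := fun h => h.1 h4
            simp only [h1, h2, h3, if_false]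
            subst h4
            nlinarith [hCx c hc, hl0 u]
          · have h3 : C u := ⟨h4, h1, h2⟩
            simp only [h1, h2, h3, if_true, if_false]
            linarith
    set LA := ∑ v, (if A v then l v else 0) with hLA
    set LB := ∑ v, (if B v then l v else 0) with hLB
    set LC := ∑ v, (if C v then l v else 0) with hLC
    have hLC0 : 0 ≤ LC := Finset.sum_nonneg fun v _ => by split_ifs; exacts [hl0 v, le_rfl]
    have hsum : ∀ c, C c → ∑ u, S c u * l u ≤ (∑ u, if C u then S c u * l u else 0) + LB - LA := by
      intro c hc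
      rw [hLB, hLA, ← Finset.sum_add_distrib, ← Finset.sum_sub_distrib]
      exact Finset.sum_le_sum fun u _ => hpt c hc u
    have h0 : 0 ≤ LC * (LB - LA) := by
      have e1 : ∑ c, (if C c then l c else 0) * (∑ u, S c u * l u) = 0 := by
        refine Finset.sum_eq_zero fun c _ => ?_
        split_ifs
        · exact hslack c
        · rw [zero_mul]
      have e2 : ∑ c, (if C c then l c else 0) * (∑ u, S c u * l u)
          ≤ ∑ c, (if C c then l c else 0) * ((∑ u, if C u then S c u * l u else 0) + LB - LA) := by
        refine Finset.sum_le_sum fun c _ => ?_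
        split_ifs with h
        · exact mul_le_mul_of_nonneg_left (hsum c h) (hl0 c)
        · rw [zero_mul, zero_mul]
      have e3 : ∑ c, (if C c then l c else 0) * ((∑ u, if C u then S c u * l u else 0) + LB - LA)
          = LC * (LB - LA) := by
        have e4 := skew_sum_eq_zero S (fun u v => by simp only [hSdef]; ring)
          (fun v => if C v then l v else 0)
        have e5 : ∀ c, (if C c then l c else 0) * ((∑ u, if C u then S c u * l u else 0) + LB - LA)
            = (∑ u, (if C c then l c else 0) * (S c u * (if C u then l u else 0)))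
              + (if C c then l c else 0) * (LB - LA) := by
          intro c
          rw [add_sub_assoc, mul_add, Finset.mul_sum]
          congr 1
          refine Finset.sum_congr rfl fun u _ => ?_
          by_cases hu : C u
          · simp only [hu, if_true]
          · simp only [hu, if_false, mul_zero]
        simp only [e5]
        rw [Finset.sum_add_distrib, e4, zero_add, ← Finset.sum_mul]
      linarith
    rcases hLC0.eq_or_lt with h | h
    · -- no weight on `C`
      have hx := hl x
      have e : ∑ u, S x u * l u ≤ LB + LC - LA := by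
        rw [hLB, hLC, hLA, ← Finset.sum_add_distrib, ← Finset.sum_sub_distrib]
        refine Finset.sum_le_sum fun u _ => ?_
        have hAB : A u → ¬ B u := fun h1 h2 => ((hB u).1 h2).2.1 ((hA u).1 h1)
        by_cases h1 : A u
        · have h2 : ¬ B u := hAB h1
          have h3 : ¬ C u := fun h => h.2.1 h1
          have h4 : D.arc u x := (hA u).1 h1
          have h5 : ¬ D.arc x u := fun h5 => D.asymm _ _ h4 h5
          simp only [h1, h2, h3, if_true, if_false, hSdef, h4, h5]
          linarith
        · by_cases h2 : B u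
          · have h3 : ¬ C u := fun h => h.2.2 h2
            simp only [h1, h2, h3, if_true, if_false]
            nlinarith [hS1 x u, hl0 u]
          · by_cases h4 : u = x
            · have h3 : ¬ C u := fun h => h.1 h4
              simp only [h1, h2, h3, if_false]
              subst h4
              simp [hSdef]
            · have h3 : C u := ⟨h4, h1, h2⟩
              simp only [h1, h2, h3, if_true, if_false]
              nlinarith [hS1 x u, hl0 u]
      linarith
    · have := nonneg_of_mul_nonneg_right h0 h
      linarith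
  -- averaging
  by_contra hcon
  push Not at hcon
  have hpos : 0 < ∑ v, l v * (∑ x ∈ N1 D v, w x - ∑ x ∈ N2 D v, w x) := by
    obtain ⟨v, hv⟩ : ∃ v, 0 < l v := by
      by_contra h
      push Not at h
      have : ∑ v, l v ≤ 0 := Finset.sum_nonpos fun v _ => h v
      linarith
    refine Finset.sum_pos' (fun v _ => mul_nonneg (hl0 v) (by linarith [hcon v])) ⟨v, Finset.mem_univ v, ?_⟩
    exact mul_pos hv (by linarith [hcon v])
  have hsw : ∀ N : V → Finset V, ∑ v, l v * ∑ x ∈ N v, w x
      = ∑ x, w x * ∑ v, (if x ∈ N v then l v else 0) := by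
    intro N
    have e1 : ∀ v, l v * ∑ x ∈ N v, w x = ∑ x, w x * (if x ∈ N v then l v else 0) := by
      intro v
      rw [Finset.mul_sum, ← Finset.sum_filter_add_sum_filter_not Finset.univ (· ∈ N v)
        (fun x => w x * (if x ∈ N v then l v else 0))]
      rw [Finset.sum_eq_zero (s := Finset.univ.filter fun x => ¬ (x ∈ N v)) (by
        intro x hx
        rw [if_neg (Finset.mem_filter.1 hx).2, mul_zero]), add_zero]
      have : Finset.univ.filter (· ∈ N v) = N v := by ext x; simp
      rw [this]
      refine Finset.sum_congr rfl fun x hx => ?_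
      rw [if_pos hx, mul_comm]
    simp only [e1]
    rw [Finset.sum_comm]
    simp only [← Finset.mul_sum]
  have hle : ∑ v, l v * (∑ x ∈ N1 D v, w x - ∑ x ∈ N2 D v, w x) ≤ 0 := by
    simp only [mul_sub, Finset.sum_sub_distrib]
    rw [hsw, hsw, ← Finset.sum_sub_distrib]
    refine Finset.sum_nonpos fun x _ => ?_
    rw [← mul_sub]
    exact mul_nonpos_of_nonneg_of_nonpos (hw x) (by linarith [key x])
  linarith

end Vale.Agent.P038.K4.Sub
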